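import Vale.Agent.P363.R.B5.Defs

/-! Block B5.8: the two-sided bound of the Dyson amplitude and the bound of the `Q` channel give
`FarKink`. -/

namespace Vale.Agent.P363.H79

open MeasureTheory Set Filter Topology Metric
open Vale.Agent.P363.Stmt
open Vale.Agent.P363.R.Top
open Vale.Agent.P363.B5
open scoped ENNReal

noncomputable section

/-- the decaying comparison function `(Xf k s r)⁻¹ / r²`. -/
def Ff (k s r : ℝ) : ℝ := (Xf k s r)⁻¹ / r ^ 2

theorem Ff_pos {k s r : ℝ} (hr : 0 < r) : 0 < Ff k s r :=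
  div_pos (inv_pos.2 (Xf_pos k s r)) (pow_pos hr 2)

theorem Ff_eq {k s r : ℝ} (hr : 0 < r) : Ff k s r = Real.exp (-(k * r) + (s - 2) * Real.log r) := by
  have h2 : r ^ 2 = Real.exp (2 * Real.log r) := by
    rw [mul_comm, Real.exp_mul, Real.exp_log hr]
    norm_num
  rw [Ff, Xf, ← Real.exp_neg, h2, ← Real.exp_sub]
  congr 1
  ring

theorem log_comp {r ρ : ℝ} (hρ : 4 ≤ ρ) (h : |r - ρ| ≤ 2) :
    |Real.log r - Real.log ρ| ≤ 1 := by
  have h1 := abs_le.1 h
  have hr : 2 ≤ r := by linarith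
  have hr0 : 0 < r := by linarith
  have hρ0 : 0 < ρ := by linarith
  rw [abs_le]
  constructor
  · have h2 : Real.log (ρ / r) ≤ ρ / r - 1 := Real.log_le_sub_one_of_pos (div_pos hρ0 hr0)
    rw [Real.log_div hρ0.ne' hr0.ne'] at h2
    have h3 : ρ / r - 1 ≤ 1 := by
      rw [sub_le_iff_le_add, div_le_iff₀ hr0]
      linarith
    linarith
  · have h2 : Real.log (r / ρ) ≤ r / ρ - 1 := Real.log_le_sub_one_of_pos (div_pos hr0 hρ0)
    rw [Real.log_div hr0.ne' hρ0.ne'] at h2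
    have h3 : r / ρ - 1 ≤ 1 := by
      rw [sub_le_iff_le_add, div_le_iff₀ hρ0]
      linarith
    linarith

theorem Ff_comp {k s r ρ : ℝ} (hk : 0 ≤ k) (hs : 1 ≤ s) (hs' : s ≤ 3) (hρ : 4 ≤ ρ)
    (h : |r - ρ| ≤ 2) :
    Real.exp (-(2 * k + 1)) * Ff k s ρ ≤ Ff k s r ∧
      Ff k s r ≤ Real.exp (2 * k + 1) * Ff k s ρ := by
  have h1 := abs_le.1 h
  have hr0 : 0 < r := by linarith
  have hρ0 : 0 < ρ := by linarith
  have hl := log_comp hρ h
  have hsl : |(s - 2) * (Real.log r - Real.log ρ)| ≤ 1 := by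
    rw [abs_mul]
    have hs2 : |s - 2| ≤ 1 := by
      rw [abs_le]
      constructor <;> linarith
    nlinarith [abs_nonneg (s - 2), abs_nonneg (Real.log r - Real.log ρ)]
  have hsl' := abs_le.1 hsl
  have hk1 : -(2 * k) ≤ k * (ρ - r) := by nlinarith
  have hk2 : k * (ρ - r) ≤ 2 * k := by nlinarith
  rw [Ff_eq hr0, Ff_eq hρ0, ← Real.exp_add, ← Real.exp_add]
  constructor
  · refine Real.exp_le_exp.2 ?_
    nlinarith
  · refine Real.exp_le_exp.2 ?_
    nlinarith

/-- A ball of radius 2 intersected with a slab of half-width `t` has volume at most `32 t`. -/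
theorem volume_ball_slab (p : R3) {t : ℝ} (_ht : 0 ≤ t) :
    volume (ball p 2 ∩ {y : R3 | |y 2| < t}) ≤ ENNReal.ofReal (32 * t) := by
  classical
  let a : Fin 3 → ℝ := ![p 0 - 2, p 1 - 2, -t]
  let b : Fin 3 → ℝ := ![p 0 + 2, p 1 + 2, t]
  have hmp := PiLp.volume_preserving_ofLp (Fin 3)
  have hsub : ball p 2 ∩ {y : R3 | |y 2| < t} ⊆
      (@WithLp.ofLp 2 (Fin 3 → ℝ)) ⁻¹' (Icc a b) := by
    rintro y ⟨hy1, hy2⟩
    have hc : ∀ i, |y i - p i| ≤ 2 := by
      intro i
      have h1 : ‖(y - p) i‖ ≤ ‖y - p‖ := PiLp.norm_apply_le (y - p) i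
      have h2 : ‖y - p‖ < 2 := by
        rw [← dist_eq_norm]
        exact hy1
      have h3 : ‖(y - p) i‖ = |y i - p i| := by
        simp [Real.norm_eq_abs]
      linarith
    have hy2' : |y 2| < t := hy2
    have h0 := abs_le.1 (hc 0)
    have h1 := abs_le.1 (hc 1)
    have h2 := abs_le.1 hy2'.le
    refine ⟨?_, ?_⟩
    · intro i
      fin_cases i
      · simp only [a]
        change p 0 - 2 ≤ y 0
        linarith
      · change p 1 - 2 ≤ y 1
        linarith
      · change -t ≤ y 2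
        linarith
    · intro i
      fin_cases i
      · change y 0 ≤ p 0 + 2
        linarith
      · change y 1 ≤ p 1 + 2
        linarith
      · change y 2 ≤ t
        linarith
  calc volume (ball p 2 ∩ {y : R3 | |y 2| < t})
      ≤ volume ((@WithLp.ofLp 2 (Fin 3 → ℝ)) ⁻¹' (Icc a b)) := measure_mono hsub
    _ = volume (Icc a b) := hmp.measure_preimage measurableSet_Icc.nullMeasurableSet
    _ = ∏ i, ENNReal.ofReal (b i - a i) := Real.volume_Icc_pi
    _ = ENNReal.ofReal (32 * t) := by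
        rw [Fin.prod_univ_three]
        have e0 : b 0 - a 0 = 4 := by
          change (p 0 + 2) - (p 0 - 2) = 4
          ring
        have e1 : b 1 - a 1 = 4 := by
          change (p 1 + 2) - (p 1 - 2) = 4
          ring
        have e2 : b 2 - a 2 = 2 * t := by
          change t - (-t) = 2 * t
          ring
        rw [e0, e1, e2, ← ENNReal.ofReal_mul (by norm_num), ← ENNReal.ofReal_mul (by norm_num)]
        congr 1
        ring

/-- B5.8: the two bounds give `FarKink`. -/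
theorem farKink_of {k s c1 C1 R C R' : ℝ} (hk : 1 / 4 ≤ k) (hs : 1 ≤ s) (hs' : s ≤ 3)
    {d : R3 → ℂ} {n : R3 → ℝ} (hd : AEStronglyMeasurable d volume)
    (hn : ∀ᵐ x, 5 * ‖d x‖ ^ 2 ≤ n x) (hn' : Integrable n)
    (h1 : TwoSided k s c1 C1 R d) (h2 : QSmall k s C R' d n) : FarKink n := by
  have hk0 : 0 ≤ k := by linarith
  set M : ℝ := |R| + |R'| + 6 with hM
  have hRM : R ≤ M - 2 := by
    have := le_abs_self R
    have := abs_nonneg R'
    linarith
  have hRM' : R' ≤ M := by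
    have := le_abs_self R'
    have := abs_nonneg R
    linarith
  have hM6 : 6 ≤ M := by
    have := abs_nonneg R'
    have := abs_nonneg R
    linarith
  let ρ : ℕ → ℝ := fun j => (j : ℝ) + M
  have hρM : ∀ j, M ≤ ρ j := fun j => by
    have : (0 : ℝ) ≤ j := Nat.cast_nonneg j
    simp only [ρ]
    linarith
  have hρ4 : ∀ j, 4 ≤ ρ j := fun j => by linarith [hρM j]
  have hρ0 : ∀ j, 0 < ρ j := fun j => by linarith [hρM j]
  let p : ℕ → R3 := fun j => EuclideanSpace.single 0 (ρ j)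
  have hpn : ∀ j, ‖p j‖ = ρ j := fun j => by
    simp only [p]
    rw [PiLp.norm_single, Real.norm_eq_abs, abs_of_pos (hρ0 j)]
  have hp2 : ∀ j, p j 2 = 0 := fun j => by
    simp [p]
  let F : ℕ → ℝ := fun j => Ff k s (ρ j)
  have hF0 : ∀ j, 0 < F j := fun j => Ff_pos (hρ0 j)
  have hρt : Tendsto ρ atTop atTop :=
    tendsto_atTop_add_const_right _ _ tendsto_natCast_atTop_atTop
  -- norms in the ball
  have hball : ∀ j, ∀ y ∈ ball (p j) 2, |‖y‖ - ρ j| ≤ 2 := by
    intro j y hy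
    have h3 : |‖y‖ - ‖p j‖| ≤ ‖y - p j‖ := abs_norm_sub_norm_le y (p j)
    have h4 : ‖y - p j‖ < 2 := by
      rw [← dist_eq_norm]
      exact hy
    rw [hpn j] at h3
    linarith
  have hballR : ∀ j, ∀ y ∈ ball (p j) 2, R ≤ ‖y‖ := by
    intro j y hy
    have := abs_le.1 (hball j y hy)
    linarith [hρM j]
  have hid : Integrable (fun x => 5 * ‖d x‖ ^ 2) := by
    refine Integrable.mono' hn' ?_ ?_
    · exact (hd.norm.pow 2).const_mul 5
    · filter_upwards [hn] with x hx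
      rw [Real.norm_eq_abs, abs_of_nonneg (by positivity)]
      exact hx
  refine ⟨p, fun j => F j ^ 2, fun j => |C| / ρ j ^ 4,
    5 * c1 ^ 2 * Real.exp (-(2 * k + 1)) ^ 2, 5 * C1 ^ 2 * Real.exp (2 * k + 1) ^ 2 * 32,
    ?_, hp2, ?_, fun j => pow_pos (hF0 j) 2, ?_, ?_, ?_⟩
  · have := h1.hc1
    positivity
  · simp only [hpn]
    exact hρt
  · have h5 : Tendsto (fun j => ρ j ^ 4) atTop atTop :=
      (tendsto_pow_atTop (by norm_num)).comp hρt
    simpa using h5.const_div_atTop |C|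
  · intro j
    filter_upwards [h1.lower, hn] with y hy1 hy2 hyb
    have hR := hballR j y hyb
    have hy1' := hy1 hR
    have hcmp := (Ff_comp (s := s) hk0 hs hs' (hρ4 j) (hball j y hyb)).1
    have hE : 0 < Real.exp (-(2 * k + 1)) := Real.exp_pos _
    have h6 : c1 * (Real.exp (-(2 * k + 1)) * F j) * |y 2| ≤ ‖d y‖ := by
      refine le_trans ?_ hy1'
      have h7 : c1 * (Xf k s ‖y‖)⁻¹ / ‖y‖ ^ 2 = c1 * Ff k s ‖y‖ := by
        rw [Ff]
        ring
      rw [h7]
      have := h1.hc1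
      exact mul_le_mul_of_nonneg_right (mul_le_mul_of_nonneg_left hcmp this.le) (abs_nonneg _)
    have h8 : (c1 * (Real.exp (-(2 * k + 1)) * F j) * |y 2|) ^ 2 ≤ ‖d y‖ ^ 2 := by
      refine pow_le_pow_left₀ ?_ h6 2
      have := h1.hc1
      have := hF0 j
      positivity
    have h9 : (c1 * (Real.exp (-(2 * k + 1)) * F j) * |y 2|) ^ 2 =
        c1 ^ 2 * Real.exp (-(2 * k + 1)) ^ 2 * F j ^ 2 * (y 2) ^ 2 := by
      rw [mul_pow, mul_pow, mul_pow, sq_abs]
      ring
    rw [h9] at h8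
    calc 5 * c1 ^ 2 * Real.exp (-(2 * k + 1)) ^ 2 * F j ^ 2 * (y 2) ^ 2
        = 5 * (c1 ^ 2 * Real.exp (-(2 * k + 1)) ^ 2 * F j ^ 2 * (y 2) ^ 2) := by ring
      _ ≤ 5 * ‖d y‖ ^ 2 := by linarith
      _ ≤ n y := hy2
  · intro j t ht
    obtain ⟨ht0, ht2⟩ := ht
    set S : Set R3 := ball (p j) 2 ∩ {y | |y 2| < t} with hS
    have hSm : MeasurableSet S := by
      refine measurableSet_ball.inter ?_
      have hc : Measurable fun y : R3 => |y 2| := by fun_prop
      exact measurableSet_lt hc measurable_const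
    have hvol : volume S ≤ ENNReal.ofReal (32 * t) := volume_ball_slab (p j) ht0.le
    have hvolt : volume S ≠ ⊤ := (hvol.trans_lt ENNReal.ofReal_lt_top).ne
    have hq := h2 (p j) (hp2 j) (by rw [hpn j]; linarith [hρM j])
    rw [hpn j] at hq
    have hsum : ∫ y in S, n y = (∫ y in S, 5 * ‖d y‖ ^ 2) + ∫ y in S, (n y - 5 * ‖d y‖ ^ 2) := by
      have hi2 : IntegrableOn (fun y => n y - 5 * ‖d y‖ ^ 2) S := (hn'.sub hid).integrableOn
      rw [← integral_add hid.integrableOn hi2]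
      refine integral_congr_ae (Eventually.of_forall fun y => ?_)
      simp
    rw [hsum]
    have hA : ∫ y in S, 5 * ‖d y‖ ^ 2 ≤
        5 * C1 ^ 2 * Real.exp (2 * k + 1) ^ 2 * F j ^ 2 * t ^ 2 * (32 * t) := by
      set K : ℝ := 5 * C1 ^ 2 * Real.exp (2 * k + 1) ^ 2 * F j ^ 2 * t ^ 2 with hK
      have hK0 : 0 ≤ K := by positivity
      have hle : ∫ y in S, 5 * ‖d y‖ ^ 2 ≤ ∫ _ in S, K := by
        refine setIntegral_mono_on_ae hid.integrableOn (integrableOn_const hvolt) hSm ?_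
        filter_upwards [h1.upper] with y hy1 hyS
        have hyb : y ∈ ball (p j) 2 := hyS.1
        have hyt : |y 2| < t := hyS.2
        have hy1' := hy1 (hballR j y hyb)
        have hcmp := (Ff_comp (s := s) hk0 hs hs' (hρ4 j) (hball j y hyb)).2
        have h7 : C1 * (Xf k s ‖y‖)⁻¹ / ‖y‖ ^ 2 = C1 * Ff k s ‖y‖ := by
          rw [Ff]
          ring
        rw [h7] at hy1'
        have hFy : 0 < Ff k s ‖y‖ := by
          refine Ff_pos ?_
          have := abs_le.1 (hball j y hyb)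
          linarith [hρM j]
        have h8 : ‖d y‖ ^ 2 ≤ (C1 * Ff k s ‖y‖ * |y 2|) ^ 2 :=
          pow_le_pow_left₀ (norm_nonneg _) hy1' 2
        have h9 : (C1 * Ff k s ‖y‖ * |y 2|) ^ 2 = C1 ^ 2 * Ff k s ‖y‖ ^ 2 * |y 2| ^ 2 := by ring
        have h10 : Ff k s ‖y‖ ^ 2 ≤ (Real.exp (2 * k + 1) * F j) ^ 2 :=
          pow_le_pow_left₀ hFy.le hcmp 2
        have h11 : |y 2| ^ 2 ≤ t ^ 2 := pow_le_pow_left₀ (abs_nonneg _) hyt.le 2
        have h12 : C1 ^ 2 * Ff k s ‖y‖ ^ 2 * |y 2| ^ 2 ≤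
            C1 ^ 2 * (Real.exp (2 * k + 1) * F j) ^ 2 * t ^ 2 := by
          refine mul_le_mul (mul_le_mul_of_nonneg_left h10 (by positivity)) h11 (by positivity)
            (by positivity)
        rw [h9] at h8
        rw [hK]
        have h13 : C1 ^ 2 * (Real.exp (2 * k + 1) * F j) ^ 2 * t ^ 2 =
            C1 ^ 2 * Real.exp (2 * k + 1) ^ 2 * F j ^ 2 * t ^ 2 := by ring
        rw [h13] at h12
        linarith
      rw [setIntegral_const, smul_eq_mul] at hle
      have hv : (volume : Measure R3).real S ≤ 32 * t := by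
        rw [measureReal_def]
        exact ENNReal.toReal_le_of_le_ofReal (by positivity) hvol
      calc ∫ y in S, 5 * ‖d y‖ ^ 2 ≤ (volume : Measure R3).real S * K := hle
        _ ≤ (32 * t) * K := mul_le_mul_of_nonneg_right hv hK0
        _ = K * (32 * t) := by ring
    have hB : ∫ y in S, (n y - 5 * ‖d y‖ ^ 2) ≤ |C| / ρ j ^ 8 * ((Xf k s (ρ j))⁻¹) ^ 2 := by
      have hle : ∫ y in S, (n y - 5 * ‖d y‖ ^ 2) ≤ ∫ y in ball (p j) 2, (n y - 5 * ‖d y‖ ^ 2) := by
        refine setIntegral_mono_set hq.1 ?_ (Eventually.of_forall fun y hy => hy.1)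
        exact ae_restrict_of_ae (by filter_upwards [hn] with y hy; simp only [Pi.zero_apply]; linarith)
      refine hle.trans (hq.2.trans ?_)
      refine mul_le_mul_of_nonneg_right ?_ (by positivity)
      exact div_le_div_of_nonneg_right (le_abs_self C) (by have := hρ0 j; positivity)
    have hC : |C| / ρ j ^ 8 * ((Xf k s (ρ j))⁻¹) ^ 2 = F j ^ 2 * (|C| / ρ j ^ 4) := by
      simp only [F, Ff]
      have := (hρ0 j).ne'
      field_simp
    rw [hC] at hB
    calc (∫ y in S, 5 * ‖d y‖ ^ 2) + ∫ y in S, (n y - 5 * ‖d y‖ ^ 2)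
        ≤ 5 * C1 ^ 2 * Real.exp (2 * k + 1) ^ 2 * F j ^ 2 * t ^ 2 * (32 * t) +
          F j ^ 2 * (|C| / ρ j ^ 4) := add_le_add hA hB
      _ = F j ^ 2 * (5 * C1 ^ 2 * Real.exp (2 * k + 1) ^ 2 * 32 * t ^ 3 + |C| / ρ j ^ 4) := by ring

end

end Vale.Agent.P363.H79
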